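import Vale.Agent.P146F.Main

/-!
# Fluctuations of the SK free energy diverge at every low temperature

`F_n(β) / β` puts vanishing mass in every window of fixed width, uniformly on `β ≥ 1`, and so does
the ground state; in particular the variances tend to infinity.
-/

namespace Vale.Agent.Results.P146.FluctuationsDiverge

open MeasureTheory ProbabilityTheory Finset Filter
open Vale.Agent.P146

theorem result :
    (∀ L : ℝ, ∀ ε > 0, ∃ δ > 0, ∀ᶠ n : ℕ in atTop,
      (∀ β : ℝ, 1 - δ ≤ β → ∀ c : ℝ, (Measure.pi fun _ : Edge n => gaussianReal 0 1).real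
        {g | |Real.log (∑ s : Fin n → Bool, Real.exp (β * H g s)) - c| ≤ β * L} ≤ ε) ∧
      ∀ c : ℝ, (Measure.pi fun _ : Edge n => gaussianReal 0 1).real
        {g | |(univ.sup' univ_nonempty fun s : Fin n → Bool => H g s) - c| ≤ L} ≤ ε) ∧
    ∀ B : ℝ, ∃ δ > 0, ∀ᶠ n : ℕ in atTop,
      (∀ β : ℝ, 1 - δ ≤ β → B * β ^ 2 ≤ variance
        (fun g : Edge n → ℝ => Real.log (∑ s : Fin n → Bool, Real.exp (β * H g s)))
        (Measure.pi fun _ : Edge n => gaussianReal 0 1)) ∧
      B ≤ variance
        (fun g : Edge n → ℝ => univ.sup' univ_nonempty fun s : Fin n → Bool => H g s)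
        (Measure.pi fun _ : Edge n => gaussianReal 0 1) :=
  Vale.Agent.P146F.fluctuations_diverge

end Vale.Agent.Results.P146.FluctuationsDiverge
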